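import Vale.Agent.P085.Transfer.Formal
import Vale.Agent.P086.Model.Main

/-!
P085, transfer: in the model, every element is a two-norm limit of formal expressions, and the
functions of the first unitary are limits of bounded sequences of polynomials.
-/

open scoped InnerProductSpace Topology
open Filter
open VP086.Model

namespace VP085

/-- The tuple of the model. -/
noncomputable def modelGens : Fin 3 → unitary (LA F4) :=
  ![VP086.Model.gen 0, VP086.Model.gen 1, VP086.Model.gen 2]

/-- The letters at the tuple of the model. -/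
noncomputable def modelVal : Gen → LA F4 := val modelGens qElt

/-- The moments of the model. -/
noncomputable def modelMoment (W : List Gen) : ℂ := (std F4).τ (ev modelVal W)

/-- Expressions contain the generated star algebra. -/
theorem exists_gen_expr {A : Type} [CStarAlgebra A] {f : Gen → A} (hf : StarValued f) {x : A}
    (hx : x ∈ StarAlgebra.adjoin ℂ (Set.range f)) : ∃ l : Expr, tot f l = x := by
  induction hx using StarAlgebra.adjoin_induction with
  | mem y hy =>
    obtain ⟨g, rfl⟩ := hy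
    exact ⟨VP085.gen g, tot_gen f g⟩
  | algebraMap r => exact ⟨cst r, by rw [tot_cst, Algebra.algebraMap_eq_smul_one]⟩
  | add y z _ _ ihy ihz =>
    obtain ⟨l, rfl⟩ := ihy
    obtain ⟨k, rfl⟩ := ihz
    exact ⟨l ++ k, tot_append f l k⟩
  | mul y z _ _ ihy ihz =>
    obtain ⟨l, rfl⟩ := ihy
    obtain ⟨k, rfl⟩ := ihz
    exact ⟨mulE l k, tot_mulE f l k⟩
  | star y _ ihy =>
    obtain ⟨l, rfl⟩ := ihy
    exact ⟨adjE l, tot_adjE hf l⟩

theorem starValued_modelVal : StarValued modelVal :=
  starValued_val _ (VP086.Calc.semiElt_star inj4 compl4 (hu 3))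

theorem norm_qElt_le : ‖qElt‖ ≤ 2 := by
  show ‖VP086.Calc.semiElt inj4 compl4 (hu 3)‖ ≤ 2
  set P := (VP086.Calc.calc' (VP086.Calc.isHaar (hu 3)) compl4 inj4).comp VP086.Calc.compSemi
  refine (NonUnitalStarAlgHom.norm_apply_le P VP086.Calc.idSemi).trans ?_
  refine (ContinuousMap.norm_le _ zero_le_two).2 fun y => ?_
  show ‖((y : ℝ) : ℂ)‖ ≤ 2
  rw [Complex.norm_real, Real.norm_eq_abs, abs_le]
  exact y.2

/-- The generated algebra is dense in the two-norm in the model. -/
theorem exists_model_expr (x : LA F4) {η : ℝ} (hη : 0 < η) :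
    ∃ l : Expr, ‖vec F4 (x - tot modelVal l)‖ ≤ η := by
  set B := StarAlgebra.adjoin ℂ (Set.range modelVal) with hB
  set K := (B.toSubalgebra.toSubmodule.map (vec F4)).topologicalClosure with hK
  have hle : ∀ y ∈ B.topologicalClosure, vec F4 y ∈ K := by
    intro y hy
    have hc : Continuous (vec F4) :=
      (LinearMap.mkContinuous (vec F4) 1 fun z => by
        rw [one_mul]
        exact VP086.Lim.norm_le (std F4) z).continuous
    exact map_mem_closure hc hy fun z hz => ⟨z, hz, rfl⟩
  have hgen : ∀ g, B.topologicalClosure ≥ StarAlgebra.adjoin ℂ {modelVal g} := fun g =>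
    StarAlgebra.adjoin_le fun y hy => by
      rw [Set.mem_singleton_iff.1 hy]
      exact B.le_topologicalClosure (StarAlgebra.subset_adjoin ℂ _ ⟨g, rfl⟩)
  have htop : K = ⊤ := by
    refine span_pm_dense (Submodule.isClosed_topologicalClosure _) fun g => ?_
    rw [← vec_lamU g]
    refine hle _ ?_
    induction g using FreeGroup.induction_on with
    | C1 => rw [map_one]; exact one_mem _
    | of i =>
      fin_cases i
      · exact hgen (.p 0) (StarAlgebra.self_mem_adjoin_singleton ℂ _)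
      · exact hgen (.p 1) (StarAlgebra.self_mem_adjoin_singleton ℂ _)
      · exact hgen (.p 2) (StarAlgebra.self_mem_adjoin_singleton ℂ _)
      · exact StarSubalgebra.topologicalClosure_minimal (hgen .q)
          (StarSubalgebra.isClosed_topologicalClosure _)
          (VP086.Calc.self_mem_closure inj4 compl4 (hu 3))
    | inv_of i hi => rw [map_inv]; exact star_mem hi
    | mul a b ha hb => rw [map_mul]; exact mul_mem ha hb
  have hx : vec F4 x ∈ K := htop ▸ Submodule.mem_top
  obtain ⟨_, ⟨y, hy, rfl⟩, hd⟩ := Metric.mem_closure_iff.1 hx η hη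
  obtain ⟨l, rfl⟩ := exists_gen_expr starValued_modelVal hy
  exact ⟨l, by rw [map_sub, ← dist_eq_norm]; exact hd.le⟩

section Bounded

variable {A : Type} [CStarAlgebra A] {H : Type} [NormedAddCommGroup H] [InnerProductSpace ℂ H]
variable (S : VP086.Std A H)

/-- Two-norm limits of bounded families of elements of `B`. -/
noncomputable def bounded (B : StarSubalgebra ℂ A) : StarSubalgebra ℂ A where
  carrier := {x | ∃ C : ℝ, ∀ ε > 0, ∃ z ∈ B, ‖z‖ ≤ C ∧ ‖S.ι (x - z)‖ ≤ ε}
  mul_mem' {x y} := by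
    rintro ⟨C, hx⟩ ⟨D, hy⟩
    refine ⟨C * D, fun ε hε => ?_⟩
    have hd : (0 : ℝ) < ‖y‖ + |C| + 1 := by positivity
    obtain ⟨a, ha, na, da⟩ := hx (ε / (‖y‖ + |C| + 1)) (by positivity)
    obtain ⟨b, hb, nb, db⟩ := hy (ε / (‖y‖ + |C| + 1)) (by positivity)
    refine ⟨a * b, mul_mem ha hb, (norm_mul_le _ _).trans
      (mul_le_mul na nb (norm_nonneg _) ((norm_nonneg _).trans na)), ?_⟩
    refine (VP086.Lim.nrm_mul_sub S a b x y).trans ?_
    calc ‖y‖ * ‖S.ι (x - a)‖ + ‖a‖ * ‖S.ι (y - b)‖
        ≤ ‖y‖ * (ε / (‖y‖ + |C| + 1)) + |C| * (ε / (‖y‖ + |C| + 1)) :=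
          add_le_add (mul_le_mul_of_nonneg_left da (norm_nonneg _))
            (mul_le_mul (na.trans (le_abs_self C)) db (norm_nonneg _) (abs_nonneg _))
      _ = (‖y‖ + |C|) * (ε / (‖y‖ + |C| + 1)) := by ring
      _ ≤ ε := by rw [mul_div_assoc', div_le_iff₀ hd]; nlinarith
  add_mem' {x y} := by
    rintro ⟨C, hx⟩ ⟨D, hy⟩
    refine ⟨C + D, fun ε hε => ?_⟩
    obtain ⟨a, ha, na, da⟩ := hx (ε / 2) (half_pos hε)
    obtain ⟨b, hb, nb, db⟩ := hy (ε / 2) (half_pos hε)
    refine ⟨a + b, add_mem ha hb, (norm_add_le _ _).trans (add_le_add na nb), ?_⟩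
    rw [show x + y - (a + b) = (x - a) + (y - b) by abel, map_add]
    linarith [norm_add_le (S.ι (x - a)) (S.ι (y - b))]
  algebraMap_mem' c := ⟨‖algebraMap ℂ A c‖, fun ε hε =>
    ⟨_, algebraMap_mem B c, le_rfl, by simp [hε.le]⟩⟩
  star_mem' {x} := by
    rintro ⟨C, hx⟩
    refine ⟨C, fun ε hε => ?_⟩
    obtain ⟨a, ha, na, da⟩ := hx ε hε
    exact ⟨star a, star_mem ha, by rwa [norm_star], by
      rwa [← star_sub, VP086.Lim.nrm_star S]⟩

theorem mem_bounded_self {B : StarSubalgebra ℂ A} {x : A} (hx : x ∈ B) : x ∈ bounded S B :=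
  ⟨‖x‖, fun ε hε => ⟨x, hx, le_rfl, by simp [hε.le]⟩⟩

end Bounded

/-- The functions of the first unitary are two-norm limits of bounded polynomials in it. -/
theorem dAlg_le_bounded {B : StarSubalgebra ℂ (LA F4)} (hB : (VP086.Model.gen 0 : LA F4) ∈ B) :
    dAlg ≤ bounded (std F4) B := by
  rintro _ ⟨f, rfl⟩
  obtain ⟨g, ⟨C, hC⟩, -, hga⟩ := VP086.Calc.rep_calcFun (VP086.Calc.isHaar (hu 0)) compl4 f
  set a := VP086.Calc.calcFun (VP086.Calc.isHaar (hu 0)) compl4 f with ha
  refine ⟨C + 1, fun ε hε => ?_⟩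
  obtain ⟨n, hn⟩ := (Metric.tendsto_nhds.1 hga (ε / 2) (half_pos hε)).exists
  have hmem : VP086.Calc.ev (VP086.Model.gen 0) (g n) ∈ B.topologicalClosure := by
    have hle : Submodule.span ℂ (Set.range (@fourier (1 : ℝ))) ≤
        B.topologicalClosure.toSubalgebra.toSubmodule.comap
          (VP086.Calc.ev (VP086.Model.gen 0) :
            C(UnitAddCircle, ℂ) →⋆ₐ[ℂ] LA F4).toAlgHom.toLinearMap := by
      refine Submodule.span_le.2 ?_
      rintro _ ⟨m, rfl⟩
      show VP086.Calc.ev (VP086.Model.gen 0) (fourier m) ∈ B.topologicalClosure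
      rw [VP086.Calc.ev_fourier]
      refine B.le_topologicalClosure ?_
      have hu : ∀ k : ℕ, ((VP086.Model.gen 0 ^ k : unitary (LA F4)) : LA F4) ∈ B := fun k => by
        rw [SubmonoidClass.coe_pow]; exact pow_mem hB k
      cases m with
      | ofNat k => simpa using hu k
      | negSucc k =>
        rw [zpow_negSucc, ← Unitary.star_eq_inv, Unitary.coe_star]
        exact star_mem (hu (k + 1))
    have hcont : Continuous (VP086.Calc.ev (VP086.Model.gen 0)) :=
      AddMonoidHomClass.continuous_of_bound _ 1 fun z => by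
        simpa using NonUnitalStarAlgHom.norm_apply_le (VP086.Calc.ev (VP086.Model.gen 0)) z
    have := Submodule.topologicalClosure_minimal _ hle
      ((StarSubalgebra.isClosed_topologicalClosure B).preimage hcont)
    rw [span_fourier_closure_eq_top] at this
    exact this (Submodule.mem_top (x := g n))
  obtain ⟨z, hz, hd⟩ := Metric.mem_closure_iff.1 hmem (min 1 (ε / 2)) (lt_min one_pos (half_pos hε))
  refine ⟨z, hz, ?_, ?_⟩
  · have h1 := (NonUnitalStarAlgHom.norm_apply_le (VP086.Calc.ev (VP086.Model.gen 0)) (g n)).trans (hC n)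
    have h2 := hd.le.trans (min_le_left _ _)
    rw [dist_eq_norm] at h2
    linarith [norm_le_norm_add_norm_sub (VP086.Calc.ev (VP086.Model.gen 0) (g n)) z]
  · show ‖(std F4).ι (a - z)‖ ≤ ε
    rw [show a - z = (a - VP086.Calc.ev (VP086.Model.gen 0) (g n)) +
      (VP086.Calc.ev (VP086.Model.gen 0) (g n) - z) by abel, map_add]
    have h1 : ‖(std F4).ι (a - VP086.Calc.ev (VP086.Model.gen 0) (g n))‖ ≤ ε / 2 := by
      rw [map_sub, ← dist_eq_norm, dist_comm]; exact hn.le
    have h2 := (VP086.Lim.norm_le (std F4) (VP086.Calc.ev (VP086.Model.gen 0) (g n) - z)).trans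
      ((dist_eq_norm (VP086.Calc.ev (VP086.Model.gen 0) (g n)) z) ▸ hd.le.trans (min_le_right _ _))
    linarith [norm_add_le ((std F4).ι (a - VP086.Calc.ev (VP086.Model.gen 0) (g n)))
      ((std F4).ι (VP086.Calc.ev (VP086.Model.gen 0) (g n) - z))]

end VP085
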