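import Vale.Agent.P086.Norms

/-!
P085, transfer: every unitary is close in the two-norm to a scalar multiple of a Cayley transform,
and the resolvent is a uniform limit of polynomials.
-/

open scoped InnerProductSpace ComplexConjugate
open Complex (I)
open VP086.Lim

namespace VP085

variable {A : Type} [CStarAlgebra A] {H : Type} [NormedAddCommGroup H] [InnerProductSpace ℂ H]

/-- A polynomial small on `[-C, C]` is small at a self-adjoint element of norm at most `C`. -/
theorem norm_aeval_le {T : A} (hT : star T = T) {C η : ℝ} (hη : 0 ≤ η) (hC : ‖T‖ ≤ C)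
    (hne : Nontrivial A) (p : Polynomial ℂ) (hp : ∀ t : ℝ, |t| ≤ C → ‖p.eval (t : ℂ)‖ ≤ η) :
    ‖Polynomial.aeval T p‖ ≤ η := by
  have hs : IsSelfAdjoint T := hT
  have : IsStarNormal T := hs.isStarNormal
  rw [← cfc_polynomial p T]
  refine norm_cfc_le hη fun z hz => ?_
  have him : z.im = 0 := hs.im_eq_zero_of_mem_spectrum hz
  have hz' : z = ((z.re : ℝ) : ℂ) := Complex.ext rfl (by simp [him])
  have hn : ‖z‖ ≤ C := (spectrum.norm_le_norm_of_mem hz).trans hC
  rw [hz'] at hn ⊢
  exact hp _ (by simpa using hn)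

/-- Uniform polynomial approximation of the resolvent. -/
theorem exists_poly_rsv (C η : ℝ) (hC : 0 ≤ C) (hη : 0 < η) :
    ∃ p : Polynomial ℂ, ∀ (A : Type) [CStarAlgebra A] (H : Type) [NormedAddCommGroup H]
      [InnerProductSpace ℂ H] (_ : VP086.Std A H) (T : A), star T = T → ‖T‖ ≤ C →
      ‖Polynomial.aeval T p - rsv T‖ ≤ η := by
  have hε : 0 < η / (2 * (C + 1)) := by positivity
  obtain ⟨pa, hpa⟩ := exists_polynomial_near_of_continuousOn (-C) C (fun t => t / (t ^ 2 + 1))
    ((continuous_id.div ((continuous_pow 2).add continuous_const)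
      fun t => (add_pos_of_nonneg_of_pos (sq_nonneg t) one_pos).ne').continuousOn)
    _ hε
  obtain ⟨pb, hpb⟩ := exists_polynomial_near_of_continuousOn (-C) C (fun t => -1 / (t ^ 2 + 1))
    ((continuous_const.div ((continuous_pow 2).add continuous_const)
      fun t => (add_pos_of_nonneg_of_pos (sq_nonneg t) one_pos).ne').continuousOn)
    _ hε
  let p : Polynomial ℂ := pa.map (algebraMap ℝ ℂ) + Polynomial.C I * pb.map (algebraMap ℝ ℂ)
  refine ⟨p, fun A _ H _ _ S T hT hTC => ?_⟩
  have hne := nontrivial_of_std S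
  set r : Polynomial ℂ := p * (Polynomial.X + Polynomial.C I) - 1 with hr
  clear_value r
  have e : Polynomial.aeval T p - rsv T = Polynomial.aeval T r * rsv T := by
    rw [hr, map_sub, map_mul, map_add (Polynomial.aeval T) Polynomial.X, Polynomial.aeval_X,
      Polynomial.aeval_C, map_one,
      Algebra.algebraMap_eq_smul_one, sub_mul, mul_assoc, rsv_right hT, mul_one, one_mul]
  rw [e]
  refine (norm_mul_le _ _).trans ?_
  refine (mul_le_mul ?_ (norm_rsv_le S hT) (norm_nonneg _) hη.le).trans (mul_one η).le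
  refine norm_aeval_le hT hη.le hTC hne r fun t ht => ?_
  have ht' : t ∈ Set.Icc (-C) C := abs_le.1 ht
  have hd : (t : ℂ) ^ 2 + 1 ≠ 0 := by
    have h : (0 : ℝ) < t ^ 2 + 1 := by positivity
    exact_mod_cast h.ne'
  have h1 : r.eval (t : ℂ) =
      (((pa.eval t - t / (t ^ 2 + 1) : ℝ) : ℂ) + I * ((pb.eval t - -1 / (t ^ 2 + 1) : ℝ) : ℂ)) *
        ((t : ℂ) + I) := by
    have em : ∀ q : Polynomial ℝ, (q.map (algebraMap ℝ ℂ)).eval (t : ℂ) = ((q.eval t : ℝ) : ℂ) :=
      fun q => by simpa using Polynomial.eval_map_apply (f := algebraMap ℝ ℂ) (p := q) (x := t)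
    simp only [hr, p, Polynomial.eval_sub, Polynomial.eval_mul, Polynomial.eval_add,
      Polynomial.eval_C, Polynomial.eval_X, Polynomial.eval_one, em]
    push_cast
    field_simp
    linear_combination (-(1 : ℂ)) * Complex.I_sq
  rw [h1, norm_mul]
  have h2 : ‖((pa.eval t - t / (t ^ 2 + 1) : ℝ) : ℂ) +
      I * ((pb.eval t - -1 / (t ^ 2 + 1) : ℝ) : ℂ)‖ ≤ η / (C + 1) := by
    refine (norm_add_le _ _).trans ?_
    rw [norm_mul, Complex.norm_I, one_mul, Complex.norm_real, Complex.norm_real, Real.norm_eq_abs,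
      Real.norm_eq_abs]
    have e2 : η / (C + 1) = η / (2 * (C + 1)) + η / (2 * (C + 1)) := by field_simp; ring
    rw [e2]
    exact add_le_add (hpa t ht').le (hpb t ht').le
  have h3 : ‖(t : ℂ) + I‖ ≤ C + 1 := (norm_add_le _ _).trans (by simpa using ht)
  refine (mul_le_mul h2 h3 (norm_nonneg _) (by positivity)).trans (le_of_eq ?_)
  field_simp

/-- The Cayley transform as a product. -/
theorem cay_eq {T : A} (hT : star T = T) : cay T = rsv T * (T - I • 1) := by
  have h : T - I • (1 : A) = (T + I • 1) - (2 * I) • 1 := by rw [two_mul, add_smul]; abel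
  rw [cay, h, mul_sub, rsv_left hT, mul_smul_comm, mul_one]

/-- The truncated inverse of the Cayley transform. -/
noncomputable def aFun (κ : ℝ) (z : ℂ) : ℝ := -z.im / max (1 - z.re) κ

/-- Its error, vanishing away from `1`. -/
noncomputable def eFun (κ : ℝ) (z : ℂ) : ℂ :=
  ((aFun κ z : ℂ) + I) * z - ((aFun κ z : ℂ) - I)

theorem continuous_aFun {κ : ℝ} (hκ : 0 < κ) : Continuous (aFun κ) :=
  Complex.continuous_im.neg.div ((continuous_const.sub Complex.continuous_re).max continuous_const)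
    fun _ => (lt_max_of_lt_right hκ).ne'

theorem continuous_eFun {κ : ℝ} (hκ : 0 < κ) : Continuous (eFun κ) := by
  have := continuous_aFun hκ
  unfold eFun
  fun_prop

theorem eFun_bound {κ : ℝ} (hκ : 0 < κ) {z : ℂ} (hz : ‖z‖ = 1) :
    ‖eFun κ z‖ ≤ 4 ∧ (κ ≤ 1 - z.re → eFun κ z = 0) := by
  have hsq : z.re * z.re + z.im * z.im = 1 := by
    rw [← Complex.normSq_apply, ← Complex.sq_norm, hz, one_pow]
  have hre : z.re ≤ 1 := by nlinarith [mul_self_nonneg z.im]
  constructor
  · set M := max (1 - z.re) κ with hM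
    have hM0 : 0 < M := lt_max_of_lt_right hκ
    have h1 : ‖(aFun κ z : ℂ) * (z - 1)‖ ≤ 2 := by
      refine (sq_le_sq₀ (norm_nonneg _) zero_le_two).1 ?_
      rw [Complex.sq_norm, Complex.normSq_mul, Complex.normSq_ofReal]
      have e : Complex.normSq (z - 1) = 2 * (1 - z.re) := by
        simp [Complex.normSq_apply]; linear_combination hsq
      rw [e, aFun, ← hM, div_mul_div_comm, div_mul_eq_mul_div, div_le_iff₀ (by positivity)]
      nlinarith [le_max_left (1 - z.re) κ, mul_self_nonneg z.im, sq_nonneg (1 - z.re)]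
    have e : eFun κ z = (aFun κ z : ℂ) * (z - 1) + I * (z + 1) := by rw [eFun]; ring
    have h2 : ‖I * (z + 1)‖ ≤ 2 := by
      rw [norm_mul, Complex.norm_I, one_mul]
      refine (norm_add_le _ _).trans ?_
      rw [hz, norm_one]; norm_num
    rw [e]
    linarith [norm_add_le ((aFun κ z : ℂ) * (z - 1)) (I * (z + 1))]
  · intro h
    have hd : (1 : ℝ) - z.re ≠ 0 := by linarith
    have ha : aFun κ z * (1 - z.re) = -z.im := by
      rw [aFun, max_eq_left h, div_mul_cancel₀ _ hd]
    refine Complex.ext ?_ ?_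
    · simp [eFun]; nlinarith
    · simp [eFun]
      apply mul_right_cancel₀ hd
      linear_combination z.im * ha - hsq

theorem norm_sq_cfc (S : VP086.Std A H) (W : A) [IsStarNormal W] {f : ℂ → ℂ} (hf : Continuous f) :
    ‖S.ι (cfc f W)‖ ^ 2 = (S.τ (cfc (fun z => ((‖f z‖ ^ 2 : ℝ) : ℂ)) W)).re := by
  have e : star (cfc f W) * cfc f W = cfc (fun z => ((‖f z‖ ^ 2 : ℝ) : ℂ)) W := by
    rw [← cfc_star, ← cfc_mul _ _ W]
    refine cfc_congr fun z _ => ?_
    show conj (f z) * f z = _
    rw [Complex.conj_mul', Complex.ofReal_pow]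
  rw [← e, ← inner_eq, inner_self_eq_norm_sq_to_K]
  norm_cast

/-- Every unitary is two-norm close to a scalar multiple of a Cayley transform. -/
theorem exists_phase (S : VP086.Std A H) {W : A} (hW : W ∈ unitary A) {ε : ℝ} (hε : 0 < ε) :
    ∃ (c : ℂ) (h : A), ‖c‖ = 1 ∧ star h = h ∧ ‖S.ι (c • cay h - W)‖ ≤ ε := by
  have : IsStarNormal W := isStarNormal_of_mem_unitary hW
  obtain ⟨K, hK⟩ := exists_nat_gt (16 / ε ^ 2)
  have hK0 : (0 : ℝ) < K := lt_trans (by positivity) hK
  set c : Fin K → ℂ := fun j => ((j : ℂ) + I) / ((j : ℂ) - I) with hc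
  have hden : ∀ j : Fin K, (j : ℂ) - I ≠ 0 := fun j h => by simpa using congrArg Complex.im h
  have hc1 : ∀ j, ‖c j‖ = 1 := fun j => by
    have e : (j : ℂ) + I = conj ((j : ℂ) - I) := by simp
    rw [hc]
    dsimp only
    rw [norm_div, e, Complex.norm_conj, div_self (norm_ne_zero_iff.2 (hden j))]
  have hinj : Function.Injective c := fun j l h => by
    simp only [hc] at h
    rw [div_eq_div_iff (hden j) (hden l)] at h
    have : (2 * I) * ((l : ℂ) - j) = 0 := by linear_combination h
    rcases mul_eq_zero.1 this with h' | h'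
    · simp at h'
    · exact Fin.ext (by exact_mod_cast (sub_eq_zero.1 h').symm)
  obtain ⟨m, hm, hsep⟩ : ∃ m : ℝ, 0 < m ∧ ∀ j l, j ≠ l → m ≤ ‖c j - c l‖ ^ 2 := by
    rcases (Finset.univ.filter fun p : Fin K × Fin K => p.1 ≠ p.2).eq_empty_or_nonempty with h | h
    · refine ⟨1, one_pos, fun j l hjl => ?_⟩
      exact absurd (Finset.mem_filter.2 ⟨Finset.mem_univ (j, l), hjl⟩) (h ▸ Finset.notMem_empty _)
    · obtain ⟨p, hp, hmin⟩ := Finset.exists_min_image _ (fun p => ‖c p.1 - c p.2‖ ^ 2) h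
      refine ⟨_, ?_, fun j l hjl => hmin (j, l) (Finset.mem_filter.2 ⟨Finset.mem_univ _, hjl⟩)⟩
      have hne : p.1 ≠ p.2 := (Finset.mem_filter.1 hp).2
      have := norm_pos_iff.2 (sub_ne_zero.2 (hinj.ne hne))
      positivity
  set κ := m / 16 with hκdef
  have hκ : 0 < κ := by positivity
  set e : Fin K → ℂ → ℂ := fun j z => eFun κ (conj (c j) * z) with he
  have hec : ∀ j, Continuous (e j) := fun j =>
    (continuous_eFun hκ).comp (continuous_const.mul continuous_id)
  have hcirc : ∀ z ∈ spectrum ℂ W, ‖z‖ = 1 := fun z hz => by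
    simpa using spectrum.subset_circle_of_unitary hW hz
  have hsum : ∀ z ∈ spectrum ℂ W, ∑ j, ‖e j z‖ ^ 2 ≤ 16 := by
    intro z hz
    have hz1 := hcirc z hz
    have hn : ∀ j, ‖conj (c j) * z‖ = 1 := fun j => by rw [norm_mul, Complex.norm_conj, hc1, hz1, one_mul]
    have hnear : ∀ j, e j z ≠ 0 → ‖z - c j‖ ^ 2 < 2 * κ := by
      intro j hj
      by_contra hcon
      refine hj ((eFun_bound hκ (hn j)).2 ?_)
      have e1 : ‖z - c j‖ ^ 2 = ‖conj (c j) * z - 1‖ ^ 2 := by
        have : conj (c j) * c j = 1 := by rw [Complex.conj_mul', hc1]; simp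
        rw [← one_mul ‖z - c j‖, ← hc1 j, ← Complex.norm_conj, ← norm_mul, mul_sub, this]
      have e2 : ‖conj (c j) * z - 1‖ ^ 2 = 2 * (1 - (conj (c j) * z).re) := by
        have hsq : ‖conj (c j) * z‖ ^ 2 = 1 := by rw [hn j, one_pow]
        rw [Complex.sq_norm, Complex.normSq_apply] at hsq ⊢
        simp only [Complex.sub_re, Complex.sub_im, Complex.one_re, Complex.one_im]
        linear_combination hsq
      linarith
    by_cases h : ∃ j, e j z ≠ 0
    · obtain ⟨j, hj⟩ := h
      have hz' : ∀ l, l ≠ j → e l z = 0 := by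
        intro l hl
        by_contra hl'
        have h1 := hnear j hj
        have h2 := hnear l hl'
        have h3 := hsep l j hl
        have h4 : ‖c l - c j‖ ≤ ‖z - c j‖ + ‖z - c l‖ := by
          rw [show c l - c j = (z - c j) - (z - c l) by ring]; exact norm_sub_le _ _
        nlinarith [norm_nonneg (c l - c j), norm_nonneg (z - c j), norm_nonneg (z - c l),
          mul_self_le_mul_self (norm_nonneg _) h4, sq_nonneg (‖z - c j‖ - ‖z - c l‖)]
      rw [Finset.sum_eq_single j (fun l _ hl => by simp [hz' l hl]) (fun h => absurd (Finset.mem_univ j) h)]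
      have := (eFun_bound hκ (hn j)).1
      nlinarith [norm_nonneg (e j z), show ‖e j z‖ ≤ 4 from this]
    · push Not at h
      simp [h]
  have htot : ∑ j, ‖S.ι (cfc (e j) W)‖ ^ 2 ≤ 16 := by
    set g : ℂ → ℝ := fun z => ∑ j, ‖e j z‖ ^ 2 with hg
    have hgc : Continuous g := continuous_finsetSum _ fun j _ => (hec j).norm.pow 2
    have hcast : ∀ {f : ℂ → ℝ}, Continuous f → Continuous fun z => (f z : ℂ) :=
      fun h => Complex.continuous_ofReal.comp h
    have e1 : ∀ j, ‖S.ι (cfc (e j) W)‖ ^ 2 =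
        (S.τ (cfc (fun z => ((‖e j z‖ ^ 2 : ℝ) : ℂ)) W)).re := fun j => norm_sq_cfc S W (hec j)
    have e2 : cfc (fun z => (g z : ℂ)) W = ∑ j, cfc (fun z => ((‖e j z‖ ^ 2 : ℝ) : ℂ)) W := by
      rw [← cfc_sum (fun j => fun z => ((‖e j z‖ ^ 2 : ℝ) : ℂ)) W Finset.univ
        (fun j _ => (hcast ((hec j).norm.pow 2)).continuousOn)]
      refine cfc_congr fun z _ => ?_
      simp [hg, Finset.sum_apply]
    set f : ℂ → ℂ := fun z => (Real.sqrt (16 - g z) : ℂ) with hf
    have hfc : Continuous f := hcast (continuous_const.sub hgc).sqrt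
    have e3 : cfc (fun z => ((‖f z‖ ^ 2 : ℝ) : ℂ)) W = (16 : ℂ) • 1 - cfc (fun z => (g z : ℂ)) W := by
      rw [← Algebra.algebraMap_eq_smul_one, ← cfc_const (16 : ℂ) W, ← cfc_sub _ _ W
        continuousOn_const (hcast hgc).continuousOn]
      refine cfc_congr fun z hz => ?_
      have := hsum z hz
      show ((‖(Real.sqrt (16 - g z) : ℂ)‖ ^ 2 : ℝ) : ℂ) = 16 - (g z : ℂ)
      rw [Complex.norm_real, Real.norm_eq_abs, sq_abs, Real.sq_sqrt (by simp only [hg]; linarith)]
      push_cast
      ring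
    have h0 := sq_nonneg ‖S.ι (cfc f W)‖
    rw [norm_sq_cfc S W hfc, e3] at h0
    have e4 : S.τ ((16 : ℂ) • 1 - cfc (fun z => (g z : ℂ)) W) =
        16 - S.τ (cfc (fun z => (g z : ℂ)) W) := by
      rw [τ_sub]
      simp [VP086.Std.τ, map_smul, S.norm_one]
    have e5 : S.τ (cfc (fun z => (g z : ℂ)) W) =
        ∑ j, S.τ (cfc (fun z => ((‖e j z‖ ^ 2 : ℝ) : ℂ)) W) := by
      rw [e2]
      simp [VP086.Std.τ, map_sum]
    rw [e4, e5, Complex.sub_re, Complex.re_sum] at h0
    simp only [e1]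
    simpa using h0
  obtain ⟨j, hj⟩ : ∃ j : Fin K, ‖S.ι (cfc (e j) W)‖ ≤ ε := by
    by_contra hcon
    push Not at hcon
    have h1 : ∑ _j : Fin K, ε ^ 2 ≤ ∑ j, ‖S.ι (cfc (e j) W)‖ ^ 2 :=
      Finset.sum_le_sum fun j _ => pow_le_pow_left₀ hε.le (hcon j).le 2
    rw [Finset.sum_const, Finset.card_univ, Fintype.card_fin, nsmul_eq_mul] at h1
    rw [div_lt_iff₀ (by positivity)] at hK
    linarith
  set a : ℂ → ℂ := fun z => (aFun κ (conj (c j) * z) : ℂ) with ha
  have hac : Continuous a :=
    Complex.continuous_ofReal.comp ((continuous_aFun hκ).comp (continuous_const.mul continuous_id))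
  set h := cfc a W with hh
  have hsa : star h = h := by
    rw [hh, ← cfc_star]
    exact cfc_congr fun z _ => Complex.conj_ofReal _
  refine ⟨c j, h, hc1 j, hsa, ?_⟩
  have hE : cfc (e j) W = (h + I • 1) * (conj (c j) • W) - (h - I • 1) := by
    have h1 : h + I • 1 = cfc (fun z => a z + I) W := by
      rw [cfc_add W a (fun _ => I) hac.continuousOn continuousOn_const, cfc_const I W,
        Algebra.algebraMap_eq_smul_one]
    have h2 : h - I • 1 = cfc (fun z => a z - I) W := by
      rw [cfc_sub a (fun _ => I) W hac.continuousOn continuousOn_const, cfc_const I W,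
        Algebra.algebraMap_eq_smul_one]
    have h3 : conj (c j) • W = cfc (fun z => conj (c j) * z) W := (cfc_const_mul_id (conj (c j)) W).symm
    have c1 : Continuous fun z : ℂ => a z + I := hac.add continuous_const
    have c2 : Continuous fun z : ℂ => conj (c j) * z := continuous_const.mul continuous_id
    have c3 : Continuous fun z : ℂ => a z - I := hac.sub continuous_const
    rw [h1, h2, h3, ← cfc_mul (fun z => a z + I) (fun z => conj (c j) * z) W c1.continuousOn
      c2.continuousOn, ← cfc_sub (fun z => (a z + I) * (conj (c j) * z)) (fun z => a z - I) W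
      (c1.mul c2).continuousOn c3.continuousOn]
    rfl
  have e1 : c j • cay h - W = -(c j • (rsv h * cfc (e j) W)) := by
    rw [hE, mul_sub, ← mul_assoc, rsv_left hsa, one_mul, ← cay_eq hsa, smul_sub, smul_smul,
      Complex.mul_conj', hc1, Complex.ofReal_one, one_pow, one_smul, neg_sub]
  rw [e1, map_neg, norm_neg, map_smul, norm_smul, hc1, one_mul]
  refine (S.left_le _ _).trans (le_trans ?_ hj)
  exact mul_le_of_le_one_left (norm_nonneg _) (norm_rsv_le S hsa)

end VP085
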