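import Vale.Agent.P085.Transfer.Approx
import Vale.Agent.P085.Transfer.Phase
import Vale.Agent.P086.Limit

/-!
P085: the step. A tuple whose moments are close to those of the generators of the model can be moved
slightly in its second unitary so that its self-adjoint element is almost in the algebra of the
three unitaries.
-/

open scoped InnerProductSpace
open Complex (I)
open VP086 VP086.Model

namespace VP085

/-- The second unitary replaced, and no self-adjoint letter. -/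
def moved {A : Type} [CStarAlgebra A] (u : Fin 3 → unitary A) (w : A) : Gen → A
  | .p i => if i = 1 then w else (u i : A)
  | .m i => if i = 1 then star w else star (u i : A)
  | .q => 0

theorem starValued_moved {A : Type} [CStarAlgebra A] (u : Fin 3 → unitary A) (w : A) :
    StarValued (moved u w) := fun g => by
  cases g with
  | p i => by_cases h : i = 1 <;> simp [Gen.adj, moved, h]
  | m i => by_cases h : i = 1 <;> simp [Gen.adj, moved, h]
  | q => simp [Gen.adj, moved]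

theorem tot_moved_mem {A : Type} [CStarAlgebra A] (u : Fin 3 → unitary A) (w : A) (l : Expr) :
    tot (moved u w) l ∈ StarAlgebra.adjoin ℂ {(u 0 : A), (u 2 : A), w} := by
  set B := StarAlgebra.adjoin ℂ {(u 0 : A), (u 2 : A), w}
  have hs : ∀ x ∈ ({(u 0 : A), (u 2 : A), w} : Set A), x ∈ B := fun x hx =>
    StarAlgebra.subset_adjoin ℂ _ hx
  have hg : ∀ g, moved u w g ∈ B := fun g => by
    cases g with
    | p i => fin_cases i <;> exact hs _ (by simp [moved])
    | m i => fin_cases i <;> exact star_mem (hs _ (by simp))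
    | q => exact zero_mem B
  induction l with
  | nil => simp
  | cons p l ih =>
    rw [tot_cons]
    refine add_mem (B.smul_mem (list_prod_mem ?_) _) ih
    intro x hx
    obtain ⟨g, -, rfl⟩ := List.mem_map.1 hx
    exact hg g

theorem norm_moved_le {A : Type} [CStarAlgebra A] {H : Type} [NormedAddCommGroup H]
    [InnerProductSpace ℂ H] (S : Std A H) (u : Fin 3 → unitary A) {w : A} (hw : ‖w‖ ≤ 2) (g : Gen) :
    ‖moved u w g‖ ≤ 2 := by
  have h1 : ∀ i, ‖(u i : A)‖ ≤ 2 := fun i => (Lim.norm_unit_le S (u i).2).trans one_le_two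
  cases g with
  | p i => by_cases h : i = 1 <;> simp [moved, h, hw, h1]
  | m i => by_cases h : i = 1 <;> simp [moved, h, hw, h1, norm_star]
  | q => simp [moved]

theorem moved_sub_le {A : Type} [CStarAlgebra A] {H : Type} [NormedAddCommGroup H]
    [InnerProductSpace ℂ H] (S : Std A H) (u : Fin 3 → unitary A) (w w' : A) (g : Gen) :
    ‖S.ι (moved u w g - moved u w' g)‖ ≤ ‖S.ι (w - w')‖ := by
  cases g with
  | p i => by_cases h : i = 1 <;> simp [moved, h]
  | m i =>
    by_cases h : i = 1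
    · simp only [moved, h, if_true]
      rw [← star_sub, Lim.nrm_star S]
    · simp [moved, h]
  | q => simp [moved]

/-- A scalar of modulus one times a Cayley transform. -/
theorem smul_cay_unitary {A : Type} [CStarAlgebra A] {c : ℂ} (hc : ‖c‖ = 1) {T : A}
    (hT : star T = T) : c • Lim.cay T ∈ unitary A := by
  have h := Unitary.mem_iff.1 (Lim.cay_unitary hT)
  rw [Unitary.mem_iff, star_smul, smul_mul_smul_comm, smul_mul_smul_comm, h.1, h.2,
    ← starRingEnd_apply, Complex.conj_mul', Complex.mul_conj', hc]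
  simp

/-- The polynomial substitute of the moved unitary. -/
noncomputable def unitE (c : ℂ) (p : Polynomial ℂ) (l : Expr) : Expr :=
  scale c (cst 1 ++ scale (-(2 * I)) (polyE p l))

/-- What is substituted for the letters. -/
noncomputable def substE (e : Expr) : Gen → Expr
  | .p i => if i = 1 then e else VP085.gen (.p i)
  | .m i => if i = 1 then adjE e else VP085.gen (.m i)
  | .q => []

theorem tot_substE {A : Type} [CStarAlgebra A] (u : Fin 3 → unitary A) {q : A} (hq : star q = q)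
    (e l : Expr) : tot (val u q) (subst (substE e) l) = tot (moved u (tot (val u q) e)) l := by
  rw [tot_subst]
  congr 1
  funext g
  cases g with
  | p i => by_cases h : i = 1 <;> simp [substE, moved, h, tot_gen, val]
  | m i =>
    by_cases h : i = 1
    · simp [substE, moved, h, tot_adjE (starValued_val u hq)]
    · simp [substE, moved, h, tot_gen, val]
  | q => simp [substE, moved]

/-- One round in the model, read through bounded polynomials. -/
theorem model_round (hI : InvarianceSpec) (hS : StaticSpec) (hF : FlowSpec) {ε : ℝ}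
    (hε : 0 < ε) : ∃ w ∈ unitary (LA F4), ‖(std F4).ι (w - (modelGens 1 : LA F4))‖ ≤ ε / 10 ∧
      ∃ ly : Expr, ‖(std F4).ι (tot (moved modelGens w) ly - qElt)‖ ≤ 7 * (ε / 100) := by
  -- one round in the model
  set S₀ := system with hS₀
  have hbase : Lim.Good S₀ (base S₀) :=
    ⟨⟨S₀.u1.2, S₀.q_star, fun W => rfl⟩, Lim.fst_mem_alg S₀ _, Lim.snd_mem_alg S₀ _⟩
  obtain ⟨s, β, hgood, hβ, -, hmove, hdec⟩ :=
    Lim.stage hI hS hF (base S₀) hbase (ε / 10) (by positivity) (ε / 100) (by positivity)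
  have hw : s.1 ∈ unitary (LA F4) := hgood.1.unit
  obtain ⟨a, ha, had⟩ := hdec s.1 hw (by simp [hβ.le]) (qElt : LA F4) (Or.inr rfl)
  obtain ⟨a1, ha1, had1⟩ := Metric.mem_closure_iff.1 ha (ε / 100) (by positivity)
  set B := StarAlgebra.adjoin ℂ (Set.range (moved modelGens s.1)) with hB
  have hBg : ∀ g, moved modelGens s.1 g ∈ B := fun g => StarAlgebra.subset_adjoin ℂ _ ⟨g, rfl⟩
  have hsub : StarAlgebra.adjoin ℂ ((S₀.D : Set (LA F4)) ∪ {(S₀.u2 : LA F4), s.1}) ≤
      bounded (std F4) B := by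
    refine StarAlgebra.adjoin_le ?_
    rintro y (hy | rfl | rfl)
    · exact dAlg_le_bounded (by simpa [moved, modelGens] using hBg (.p 0)) hy
    · refine mem_bounded_self _ ?_
      have e : moved modelGens s.1 (.p 2) = (S₀.u2 : LA F4) := by simp [moved, modelGens]; rfl
      exact e ▸ hBg (.p 2)
    · exact mem_bounded_self _ (by simpa [moved] using hBg (.p 1))
  obtain ⟨C₀, hC₀⟩ := hsub ha1
  obtain ⟨z, hz, -, hzd⟩ := hC₀ (ε / 100) (by positivity)
  obtain ⟨ly, rfl⟩ := exists_gen_expr (starValued_moved _ _) hz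
  refine ⟨s.1, hw, hmove, ly, ?_⟩
  rw [show tot (moved modelGens s.1) ly - qElt =
    ((tot (moved modelGens s.1) ly - a1) + (a1 - a)) + (a - qElt) by abel, map_add, map_add]
  have h1 : ‖(std F4).ι (tot (moved modelGens s.1) ly - a1)‖ ≤ ε / 100 := by
    rw [map_sub, norm_sub_rev, ← map_sub]; exact hzd
  have h2 : ‖(std F4).ι (a1 - a)‖ ≤ ε / 100 := by
    rw [dist_comm, dist_eq_norm] at had1
    exact (Lim.norm_le (std F4) _).trans had1.le
  have h3 : ‖(std F4).ι (a - qElt)‖ ≤ 5 * (ε / 100) := by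
    rw [map_sub, norm_sub_rev, ← map_sub]; exact had
  exact (norm_add_le _ _).trans
    ((add_le_add ((norm_add_le _ _).trans (add_le_add h1 h2)) h3).trans (le_of_eq (by ring)))

/-- Transfer of one round from a tuple `u₁, q₁` to the tuples with nearby moments. -/
theorem transfer {A₁ : Type} [CStarAlgebra A₁] {H₁ : Type} [NormedAddCommGroup H₁]
    [InnerProductSpace ℂ H₁] (S₁ : Std A₁ H₁) (u₁ : Fin 3 → unitary A₁) {q₁ : A₁}
    (hq₁ : star q₁ = q₁) (hq₁2 : ‖q₁‖ ≤ 2)
    (hdense : ∀ (x : A₁) (η : ℝ), 0 < η → ∃ l : Expr, ‖S₁.ι (x - tot (val u₁ q₁) l)‖ ≤ η)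
    {ε : ℝ} (hε : 0 < ε) {w₁ : A₁} (hw₁ : w₁ ∈ unitary A₁)
    (hmove : ‖S₁.ι (w₁ - (u₁ 1 : A₁))‖ ≤ ε / 10) {ly : Expr}
    (hly : ‖S₁.ι (tot (moved u₁ w₁) ly - q₁)‖ ≤ 7 * (ε / 100)) :
    ∃ δ > 0, ∃ N : ℕ, ∀ (A : Type) [CStarAlgebra A] (H : Type) [NormedAddCommGroup H]
      [InnerProductSpace ℂ H] (S : Std A H) (u : Fin 3 → unitary A) (q : A),
      star q = q → ‖q‖ ≤ 2 →
      (∀ W : List Gen, W.length ≤ N →
        ‖S.τ (ev (val u q) W) - S₁.τ (ev (val u₁ q₁) W)‖ ≤ δ) →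
      ∃ w : unitary A, ‖S.ι ((w : A) - u 1)‖ ≤ ε ∧
        ∃ y ∈ StarAlgebra.adjoin ℂ {(u 0 : A), (u 2 : A), (w : A)}, ‖S.ι (y - q)‖ ≤ ε := by
  -- the moved unitary as a polynomial in the generators
  set L := wt ly
  have hL : 0 ≤ L := wt_nonneg ly
  set η := min (1 / 4) (ε / (100 * (L + 1))) with hηdef
  have hη : 0 < η := lt_min (by norm_num) (by positivity)
  have hη4 : η ≤ 1 / 4 := min_le_left _ _
  have hηL : (L + 1) * η ≤ ε / 100 := by
    have := min_le_right (1 / 4) (ε / (100 * (L + 1)))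
    rw [← hηdef, le_div_iff₀ (by positivity)] at this
    linarith
  obtain ⟨c, h, hc, hh, hphase⟩ := exists_phase S₁ hw₁ hη
  obtain ⟨l₀, hl₀⟩ := hdense h η hη
  set lP := scale ((2 : ℂ)⁻¹) (l₀ ++ adjE l₀) with hlP
  have hsym : ∀ {A : Type} [CStarAlgebra A] {f : Gen → A}, StarValued f →
      star (tot f lP) = tot f lP := fun {A} _ {f} hf => by
    rw [hlP, tot_scale, tot_append, tot_adjE hf, star_smul, star_add, star_star, add_comm]
    congr 1
    simp
  have hPd : ‖S₁.ι (tot (val u₁ q₁) lP - h)‖ ≤ η := by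
    have e : tot (val u₁ q₁) lP - h =
        (2 : ℂ)⁻¹ • ((tot (val u₁ q₁) l₀ - h) + star (tot (val u₁ q₁) l₀ - h)) := by
      rw [hlP, tot_scale, tot_append, tot_adjE (starValued_val u₁ hq₁), star_sub, hh]
      simp only [smul_add, smul_sub]
      rw [show (2 : ℂ)⁻¹ • star (tot (val u₁ q₁) l₀) = _ from rfl]
      have h2 : h = (2 : ℂ)⁻¹ • h + (2 : ℂ)⁻¹ • h := by
        rw [← add_smul]; norm_num
      nth_rewrite 1 [h2]
      abel
    have h1 : ‖S₁.ι (tot (val u₁ q₁) l₀ - h)‖ ≤ η := by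
      rw [map_sub, norm_sub_rev, ← map_sub]; exact hl₀
    rw [e, map_smul, norm_smul, map_add]
    have := norm_add_le (S₁.ι (tot (val u₁ q₁) l₀ - h)) (S₁.ι (star (tot (val u₁ q₁) l₀ - h)))
    rw [Lim.nrm_star S₁] at this
    rw [show ‖(2 : ℂ)⁻¹‖ = 1 / 2 by norm_num]
    linarith [Lim.nrm_star S₁ (tot (val u₁ q₁) l₀ - h)]
  obtain ⟨p, hp⟩ := exists_poly_rsv (wt lP) η (wt_nonneg lP) hη
  set lE := unitE c p lP
  have hEn : ∀ (A : Type) [CStarAlgebra A] (H : Type) [NormedAddCommGroup H]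
      [InnerProductSpace ℂ H] (S : Std A H) (f : Gen → A), StarValued f → (∀ g, ‖f g‖ ≤ 2) →
      ‖tot f lE - c • Lim.cay (tot f lP)‖ ≤ 2 * η := by
    intro A _ H _ _ S f hf hf2
    have e : tot f lE - c • Lim.cay (tot f lP) =
        -(c * (2 * I)) • (Polynomial.aeval (tot f lP) p - Lim.rsv (tot f lP)) := by
      simp only [lE, unitE, tot_scale, tot_append, tot_cst, tot_polyE, Lim.cay, one_smul]
      module
    rw [e, norm_smul]
    refine mul_le_mul (by simp [hc]) (hp A H S _ (hsym hf) (norm_tot_le S hf2 lP))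
      (norm_nonneg _) zero_le_two
  set d₁ := lE ++ scale (-1) (VP085.gen (.p 1)) with hd₁
  set d₂ := subst (substE lE) ly ++ scale (-1) (VP085.gen .q) with hd₂
  set e₁ := mulE (adjE d₁) d₁
  set e₂ := mulE (adjE d₂) d₂
  -- the two quantities in the model
  have hm2 : ∀ g, ‖(val u₁ q₁) g‖ ≤ 2 := fun g => by
    cases g with
    | p i => exact (Lim.norm_unit_le S₁ (u₁ i).2).trans one_le_two
    | m i => exact (norm_star _).trans_le ((Lim.norm_unit_le S₁ (u₁ i).2).trans one_le_two)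
    | q => exact hq₁2
  set E₀ := tot (val u₁ q₁) lE
  set w₀ := c • Lim.cay (tot (val u₁ q₁) lP)
  have hE₀ : ‖E₀ - w₀‖ ≤ 2 * η := hEn _ _ S₁ _ (starValued_val u₁ hq₁) hm2
  have hw₀ : w₀ ∈ unitary (A₁) := smul_cay_unitary hc (hsym (starValued_val u₁ hq₁))
  have hE₀n : ‖E₀‖ ≤ 2 := by
    linarith [norm_le_norm_add_norm_sub w₀ E₀, norm_sub_rev E₀ w₀, Lim.norm_unit_le S₁ hw₀]
  have hEs : ‖S₁.ι (E₀ - w₁)‖ ≤ 5 * η := by
    rw [show E₀ - w₁ = (E₀ - w₀) + ((w₀ - c • Lim.cay h) + (c • Lim.cay h - w₁)) by abel, map_add,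
      map_add]
    have h1 := (Lim.norm_le S₁ (E₀ - w₀)).trans hE₀
    have h2 : ‖S₁.ι (w₀ - c • Lim.cay h)‖ ≤ 2 * η := by
      rw [← smul_sub, map_smul, norm_smul, hc, one_mul]
      exact (Lim.cay_lip S₁ (hsym (starValued_val u₁ hq₁)) hh).trans
        (mul_le_mul_of_nonneg_left hPd zero_le_two)
    linarith [norm_add_le (S₁.ι (E₀ - w₀))
      (S₁.ι (w₀ - c • Lim.cay h) + S₁.ι (c • Lim.cay h - w₁)),
      norm_add_le (S₁.ι (w₀ - c • Lim.cay h)) (S₁.ι (c • Lim.cay h - w₁))]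
  have hm₁ : ‖S₁.ι (tot (val u₁ q₁) d₁)‖ ≤ ε / 4 := by
    have e : tot (val u₁ q₁) d₁ = (E₀ - w₁) + (w₁ - (u₁ 1 : A₁)) := by
      rw [hd₁, tot_append, tot_scale, tot_gen, neg_one_smul]
      show E₀ + -(u₁ 1 : A₁) = _
      abel
    rw [e, map_add]
    nlinarith [norm_add_le (S₁.ι (E₀ - w₁)) (S₁.ι (w₁ - (u₁ 1 : A₁))), mul_nonneg hL hη.le]
  have hm₂ : ‖S₁.ι (tot (val u₁ q₁) d₂)‖ ≤ ε / 4 := by
    have e : tot (val u₁ q₁) d₂ = (tot (moved u₁ E₀) ly - tot (moved u₁ w₁) ly) +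
        (tot (moved u₁ w₁) ly - q₁) := by
      rw [hd₂, tot_append, tot_scale, tot_gen, neg_one_smul, tot_substE u₁ hq₁ lE ly]
      show tot (moved u₁ E₀) ly + -q₁ = _
      abel
    rw [e, map_add]
    have h1 : ‖S₁.ι (tot (moved u₁ E₀) ly - tot (moved u₁ w₁) ly)‖ ≤ 5 * (ε / 100) := by
      refine (tot_lip S₁ (norm_moved_le S₁ u₁ hE₀n)
        (norm_moved_le S₁ u₁ ((Lim.norm_unit_le S₁ hw₁).trans one_le_two))
        (fun g => (moved_sub_le S₁ u₁ E₀ w₁ g).trans hEs) ly).trans ?_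
      nlinarith [mul_nonneg hL hη.le]
    linarith [norm_add_le (S₁.ι (tot (moved u₁ E₀) ly - tot (moved u₁ w₁) ly))
      (S₁.ι (tot (moved u₁ w₁) ly - q₁))]
  -- the parameters
  refine ⟨(ε / 8) ^ 2 / (mass e₁ + mass e₂ + 1), ?_, max (deg e₁) (deg e₂), ?_⟩
  · have : ∀ l : Expr, 0 ≤ mass l := fun l => List.sum_nonneg (by
      simp only [List.mem_map]; rintro x ⟨p, -, rfl⟩; exact norm_nonneg _)
    exact div_pos (by positivity) (by linarith [this e₁, this e₂])
  intro A _ H _ _ S u q hq hq2 hmom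
  have hf : StarValued (val u q) := starValued_val u hq
  have hf2 : ∀ g, ‖val u q g‖ ≤ 2 := fun g => by
    cases g with
    | p i => exact (Lim.norm_unit_le S (u i).2).trans one_le_two
    | m i =>
      show ‖star (u i : A)‖ ≤ 2
      rw [norm_star]; exact (Lim.norm_unit_le S (u i).2).trans one_le_two
    | q => exact hq2
  have hmass0 : ∀ l : Expr, 0 ≤ mass l := fun l => List.sum_nonneg (by
    simp only [List.mem_map]; rintro x ⟨p, -, rfl⟩; exact norm_nonneg _)
  have htransfer : ∀ d : Expr, deg (mulE (adjE d) d) ≤ max (deg e₁) (deg e₂) →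
      mass (mulE (adjE d) d) ≤ mass e₁ + mass e₂ + 1 → ‖S₁.ι (tot (val u₁ q₁) d)‖ ≤ ε / 4 →
      ‖S.ι (tot (val u q) d)‖ ≤ ε / 2 := by
    intro d hdeg hmass hd
    have h1 := tau_tot_sub_le S S₁ (val u q) (val u₁ q₁) hmom _ hdeg
    have e1 := norm_sq_tot S hf d
    have e2 := norm_sq_tot S₁ (starValued_val u₁ hq₁) d
    have h2 : ‖S.ι (tot (val u q) d)‖ ^ 2 - ‖S₁.ι (tot (val u₁ q₁) d)‖ ^ 2 ≤ (ε / 8) ^ 2 := by
      rw [e1, e2, ← Complex.sub_re]
      refine (Complex.re_le_norm _).trans (h1.trans ?_)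
      rw [mul_div_assoc', div_le_iff₀ (by linarith [hmass0 e₁, hmass0 e₂]), mul_comm ((ε / 8) ^ 2)]
      exact mul_le_mul_of_nonneg_right hmass (sq_nonneg _)
    nlinarith [norm_nonneg (S.ι (tot (val u q) d)), pow_le_pow_left₀ (norm_nonneg _) hd 2]
  have k₁ := htransfer d₁ (le_max_left _ _) (by linarith [hmass0 e₂]) hm₁
  have k₂ := htransfer d₂ (le_max_right _ _) (by linarith [hmass0 e₁]) hm₂
  set E := tot (val u q) lE
  set w : unitary A := ⟨c • Lim.cay (tot (val u q) lP), smul_cay_unitary hc (hsym hf)⟩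
  have hE : ‖E - w‖ ≤ 2 * η := hEn A H S _ hf hf2
  have hEn2 : ‖E‖ ≤ 2 := by
    linarith [norm_le_norm_add_norm_sub (w : A) E, norm_sub_rev E (w : A), Lim.norm_unit_le S w.2]
  have hwE : ‖S.ι ((w : A) - E)‖ ≤ 2 * η := (Lim.norm_le S _).trans (by rwa [norm_sub_rev])
  have hd1' : tot (val u q) d₁ = E - (u 1 : A) := by
    rw [hd₁, tot_append, tot_scale, tot_gen, neg_one_smul, ← sub_eq_add_neg]
    rfl
  have hd2' : tot (val u q) d₂ = tot (moved u E) ly - q := by
    rw [hd₂, tot_append, tot_scale, tot_gen, neg_one_smul, tot_substE u hq lE ly, ← sub_eq_add_neg]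
    rfl
  rw [hd1'] at k₁
  rw [hd2'] at k₂
  refine ⟨w, ?_, tot (moved u w) ly, tot_moved_mem u w ly, ?_⟩
  · rw [show (w : A) - u 1 = ((w : A) - E) + (E - u 1) by abel, map_add]
    nlinarith [norm_add_le (S.ι ((w : A) - E)) (S.ι (E - u 1)), mul_nonneg hL hη.le]
  · have h1 : ‖S.ι (tot (moved u (w : A)) ly - tot (moved u E) ly)‖ ≤ L * (2 * η) :=
      tot_lip S (norm_moved_le S u ((Lim.norm_unit_le S w.2).trans one_le_two))
        (norm_moved_le S u hEn2) (fun g => (moved_sub_le S u w E g).trans hwE) ly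
    rw [show tot (moved u (w : A)) ly - q =
      (tot (moved u (w : A)) ly - tot (moved u E) ly) + (tot (moved u E) ly - q) by abel, map_add]
    nlinarith [norm_add_le (S.ι (tot (moved u (w : A)) ly - tot (moved u E) ly))
      (S.ι (tot (moved u E) ly - q)), mul_nonneg hL hη.le]

/-- **The step.** -/
theorem step_transfer (hI : InvarianceSpec) (hS : StaticSpec) (hF : FlowSpec) :
    ∀ ε > 0, ∃ δ > 0, ∃ N : ℕ, ∀ (A : Type) [CStarAlgebra A] (H : Type) [NormedAddCommGroup H]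
      [InnerProductSpace ℂ H] (S : Std A H) (u : Fin 3 → unitary A) (q : A),
      star q = q → ‖q‖ ≤ 2 →
      (∀ W : List Gen, W.length ≤ N → ‖S.τ (ev (val u q) W) - modelMoment W‖ ≤ δ) →
      ∃ w : unitary A, ‖S.ι ((w : A) - u 1)‖ ≤ ε ∧
        ∃ y ∈ StarAlgebra.adjoin ℂ {(u 0 : A), (u 2 : A), (w : A)}, ‖S.ι (y - q)‖ ≤ ε := by
  intro ε hε
  obtain ⟨w, hw, hmove, ly, hly⟩ := model_round hI hS hF hε
  exact transfer (std F4) modelGens (VP086.Calc.semiElt_star inj4 compl4 (hu 3)) norm_qElt_le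
    (fun x η hη => exists_model_expr x hη) hε hw hmove hly

end VP085
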