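import Vale.Agent.P086.Norms

/-!
P085, transfer: formal words in three unitaries and one self-adjoint element of norm at most two,
their values, and estimates depending only on the formal expression.
-/

open scoped InnerProductSpace

namespace VP085

/-- The letters: `p i` the unitaries, `m i` their adjoints, `q` the self-adjoint element. -/
inductive Gen : Type
  | p (i : Fin 3)
  | m (i : Fin 3)
  | q

/-- The adjoint of a letter. -/
def Gen.adj : Gen → Gen
  | .p i => .m i
  | .m i => .p i
  | .q => .q

variable {A : Type} [CStarAlgebra A]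

/-- The values of the letters at a tuple. -/
def val (u : Fin 3 → unitary A) (q : A) : Gen → A
  | .p i => (u i : A)
  | .m i => star (u i : A)
  | .q => q

/-- The value of a word. -/
def ev (f : Gen → A) (W : List Gen) : A := (W.map f).prod

/-- Formal linear combinations of words. -/
abbrev Expr : Type := List (ℂ × List Gen)

/-- The value of a combination. -/
def tot (f : Gen → A) (l : Expr) : A := (l.map fun p => p.1 • ev f p.2).sum

@[simp] theorem ev_nil (f : Gen → A) : ev f [] = 1 := rfl

@[simp] theorem ev_cons (f : Gen → A) (g : Gen) (W : List Gen) :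
    ev f (g :: W) = f g * ev f W := by simp [ev]

theorem ev_append (f : Gen → A) (U V : List Gen) : ev f (U ++ V) = ev f U * ev f V := by simp [ev]

@[simp] theorem tot_nil (f : Gen → A) : tot f [] = 0 := rfl

@[simp] theorem tot_cons (f : Gen → A) (p : ℂ × List Gen) (l : Expr) :
    tot f (p :: l) = p.1 • ev f p.2 + tot f l := by simp [tot]

theorem tot_append (f : Gen → A) (l l' : Expr) : tot f (l ++ l') = tot f l + tot f l' := by
  simp [tot]

/-- A scalar. -/
def cst (c : ℂ) : Expr := [(c, [])]

theorem tot_cst (f : Gen → A) (c : ℂ) : tot f (cst c) = c • 1 := by simp [cst]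

/-- One letter. -/
def gen (g : Gen) : Expr := [(1, [g])]

theorem tot_gen (f : Gen → A) (g : Gen) : tot f (gen g) = f g := by simp [gen]

/-- A scalar multiple. -/
def scale (c : ℂ) (l : Expr) : Expr := l.map fun p => (c * p.1, p.2)

theorem tot_scale (f : Gen → A) (c : ℂ) (l : Expr) : tot f (scale c l) = c • tot f l := by
  induction l with
  | nil => simp [scale]
  | cons p l ih =>
    rw [scale, List.map_cons, tot_cons, ← scale, ih, tot_cons, smul_add, smul_smul]

/-- The product. -/
def mulE : Expr → Expr → Expr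
  | [], _ => []
  | p :: l, k => (k.map fun r => (p.1 * r.1, p.2 ++ r.2)) ++ mulE l k

theorem tot_mulE (f : Gen → A) (l k : Expr) : tot f (mulE l k) = tot f l * tot f k := by
  induction l with
  | nil => simp [mulE]
  | cons p l ih =>
    have h : ∀ k : Expr, tot f (k.map fun r => (p.1 * r.1, p.2 ++ r.2)) =
        p.1 • ev f p.2 * tot f k := by
      intro k
      induction k with
      | nil => simp
      | cons r k ihk =>
        rw [List.map_cons, tot_cons, ihk, tot_cons, mul_add, ev_append, smul_mul_assoc,
          smul_mul_assoc, mul_smul_comm, smul_smul]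
    rw [mulE, tot_append, h, ih, tot_cons, add_mul]

/-- The adjoint of a combination. -/
def adjE (l : Expr) : Expr :=
  l.map fun p => (starRingEnd ℂ p.1, (p.2.map Gen.adj).reverse)

/-- The letters take adjoints to adjoints. -/
def StarValued (f : Gen → A) : Prop := ∀ g, f g.adj = star (f g)

theorem tot_adjE {f : Gen → A} (hf : StarValued f) (l : Expr) :
    tot f (adjE l) = star (tot f l) := by
  induction l with
  | nil => simp [adjE]
  | cons p l ih =>
    have h : ∀ W : List Gen, ev f (W.map Gen.adj).reverse = star (ev f W) := by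
      intro W
      induction W with
      | nil => simp
      | cons g W ihW => simp [ev_append, ihW, hf g]
    rw [adjE, List.map_cons, tot_cons, ← adjE, ih, tot_cons, star_add, star_smul, h,
      starRingEnd_apply]

theorem starValued_val (u : Fin 3 → unitary A) {q : A} (hq : star q = q) :
    StarValued (val u q) := fun g => by cases g <;> simp [Gen.adj, val, hq]

/-- A polynomial of an expression, by Horner. -/
noncomputable def horner (a : ℕ → ℂ) (l : Expr) : ℕ → Expr
  | 0 => []
  | n + 1 => cst (a 0) ++ mulE l (horner (fun k => a (k + 1)) l n)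

theorem tot_horner (f : Gen → A) (l : Expr) (n : ℕ) :
    ∀ a : ℕ → ℂ, tot f (horner a l n) = ∑ k ∈ Finset.range n, a k • tot f l ^ k := by
  induction n with
  | zero => simp [horner]
  | succ n ih =>
    intro a
    rw [horner, tot_append, tot_cst, tot_mulE, ih, Finset.sum_range_succ', pow_zero,
      Finset.mul_sum, add_comm]
    congr 1
    exact Finset.sum_congr rfl fun k _ => by rw [mul_smul_comm, ← pow_succ']

/-- A polynomial of an expression. -/
noncomputable def polyE (p : Polynomial ℂ) (l : Expr) : Expr :=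
  horner p.coeff l (p.natDegree + 1)

theorem tot_polyE (f : Gen → A) (p : Polynomial ℂ) (l : Expr) :
    tot f (polyE p l) = Polynomial.aeval (tot f l) p := by
  rw [polyE, tot_horner, Polynomial.aeval_eq_sum_range]

/-- Substitution of expressions for letters in a word. -/
def substW (σ : Gen → Expr) : List Gen → Expr
  | [] => cst 1
  | g :: W => mulE (σ g) (substW σ W)

/-- Substitution of expressions for letters. -/
def subst (σ : Gen → Expr) (l : Expr) : Expr := l.flatMap fun p => scale p.1 (substW σ p.2)

theorem tot_subst (f : Gen → A) (σ : Gen → Expr) (l : Expr) :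
    tot f (subst σ l) = tot (fun g => tot f (σ g)) l := by
  induction l with
  | nil => simp [subst]
  | cons p l ih =>
    have h : ∀ W, tot f (substW σ W) = ev (fun g => tot f (σ g)) W := by
      intro W
      induction W with
      | nil => simp [substW, tot_cst]
      | cons g W ihW => rw [substW, tot_mulE, ihW, ev_cons]
    rw [subst, List.flatMap_cons, tot_append, ← subst, ih, tot_scale, h, tot_cons]

/-! ### Estimates -/

/-- A bound for the value and for the Lipschitz constant at letters of norm at most two. -/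
noncomputable def wt (l : Expr) : ℝ :=
  (l.map fun p => ‖p.1‖ * ((p.2.length + 1) * 2 ^ p.2.length)).sum

theorem wt_nonneg (l : Expr) : 0 ≤ wt l := by
  induction l with
  | nil => simp [wt]
  | cons p l ih => simp only [wt, List.map_cons, List.sum_cons]; simp only [wt] at ih; positivity

theorem wt_cons (p : ℂ × List Gen) (l : Expr) :
    wt (p :: l) = ‖p.1‖ * ((p.2.length + 1) * 2 ^ p.2.length) + wt l := by simp [wt]

variable {H : Type} [NormedAddCommGroup H] [InnerProductSpace ℂ H]

theorem norm_ev_le (S : VP086.Std A H) {f : Gen → A} (hf : ∀ g, ‖f g‖ ≤ 2) (W : List Gen) :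
    ‖ev f W‖ ≤ 2 ^ W.length := by
  induction W with
  | nil => simpa using VP086.Lim.norm_unit_le S (one_mem (unitary A))
  | cons g W ih =>
    rw [ev_cons, List.length_cons, pow_succ']
    exact (norm_mul_le _ _).trans (mul_le_mul (hf g) ih (norm_nonneg _) zero_le_two)

theorem norm_tot_le (S : VP086.Std A H) {f : Gen → A} (hf : ∀ g, ‖f g‖ ≤ 2) (l : Expr) :
    ‖tot f l‖ ≤ wt l := by
  induction l with
  | nil => simp [wt]
  | cons p l ih =>
    rw [tot_cons, wt_cons]
    refine (norm_add_le _ _).trans (add_le_add ?_ ih)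
    rw [norm_smul]
    refine mul_le_mul_of_nonneg_left ((norm_ev_le S hf p.2).trans ?_) (norm_nonneg _)
    exact le_mul_of_one_le_left (by positivity) (by linarith [(Nat.cast_nonneg p.2.length : (0:ℝ) ≤ _)])

theorem ev_lip (S : VP086.Std A H) {f f' : Gen → A} (hf : ∀ g, ‖f g‖ ≤ 2) (hf' : ∀ g, ‖f' g‖ ≤ 2)
    {d : ℝ} (hd : ∀ g, ‖S.ι (f g - f' g)‖ ≤ d) (W : List Gen) :
    ‖S.ι (ev f W - ev f' W)‖ ≤ W.length * 2 ^ W.length * d := by
  induction W with
  | nil => simp
  | cons g W ih =>
    have hd0 : 0 ≤ d := (norm_nonneg _).trans (hd g)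
    have h2 : (0 : ℝ) ≤ 2 ^ W.length := by positivity
    rw [ev_cons, ev_cons, List.length_cons, pow_succ']
    have h1 : ‖ev f W‖ * ‖S.ι (f g - f' g)‖ ≤ 2 ^ W.length * d :=
      mul_le_mul (norm_ev_le S hf W) (hd g) (norm_nonneg _) h2
    have h3 : ‖f' g‖ * ‖S.ι (ev f W - ev f' W)‖ ≤ 2 * (W.length * 2 ^ W.length * d) :=
      mul_le_mul (hf' g) ih (norm_nonneg _) zero_le_two
    push_cast
    nlinarith [VP086.Lim.nrm_mul_sub S (f' g) (ev f' W) (f g) (ev f W), mul_nonneg h2 hd0]

theorem tot_lip (S : VP086.Std A H) {f f' : Gen → A} (hf : ∀ g, ‖f g‖ ≤ 2)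
    (hf' : ∀ g, ‖f' g‖ ≤ 2) {d : ℝ} (hd : ∀ g, ‖S.ι (f g - f' g)‖ ≤ d) (l : Expr) :
    ‖S.ι (tot f l - tot f' l)‖ ≤ wt l * d := by
  induction l with
  | nil => simp [wt]
  | cons p l ih =>
    have hd0 : 0 ≤ d := (norm_nonneg _).trans (hd Gen.q)
    rw [tot_cons, tot_cons, wt_cons, add_sub_add_comm, ← smul_sub, map_add, map_smul, add_mul]
    refine (norm_add_le _ _).trans (add_le_add ?_ ih)
    rw [norm_smul, mul_assoc]
    refine mul_le_mul_of_nonneg_left ((ev_lip S hf hf' hd p.2).trans ?_) (norm_nonneg _)
    exact mul_le_mul_of_nonneg_right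
      (mul_le_mul_of_nonneg_right (by linarith) (by positivity)) hd0

/-- The total size of the coefficients. -/
noncomputable def mass (l : Expr) : ℝ := (l.map fun p => ‖p.1‖).sum

/-- The longest word. -/
def deg (l : Expr) : ℕ := (l.map fun p => p.2.length).foldr max 0

theorem tau_tot_sub_le {A' : Type} [CStarAlgebra A'] {H' : Type} [NormedAddCommGroup H']
    [InnerProductSpace ℂ H'] (S : VP086.Std A H) (S' : VP086.Std A' H') (f : Gen → A)
    (f' : Gen → A') {δ : ℝ} {N : ℕ}
    (h : ∀ W : List Gen, W.length ≤ N → ‖S.τ (ev f W) - S'.τ (ev f' W)‖ ≤ δ)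
    (l : Expr) (hl : deg l ≤ N) :
    ‖S.τ (tot f l) - S'.τ (tot f' l)‖ ≤ mass l * δ := by
  induction l with
  | nil => simp [mass, VP086.Std.τ]
  | cons p l ih =>
    simp only [deg, List.map_cons, List.foldr_cons, max_le_iff] at hl
    have e : ∀ {B : Type} [CStarAlgebra B] {K : Type} [NormedAddCommGroup K]
        [InnerProductSpace ℂ K] (T : VP086.Std B K) (g : Gen → B),
        T.τ (tot g (p :: l)) = p.1 * T.τ (ev g p.2) + T.τ (tot g l) := fun T g => by
      rw [tot_cons]
      simp [VP086.Std.τ, map_add, map_smul]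
    rw [e, e, mass, List.map_cons, List.sum_cons, ← mass, add_mul,
      show ∀ a b c d : ℂ, a * b + c - (a * d + (S'.τ (tot f' l))) =
        a * (b - d) + (c - S'.τ (tot f' l)) from fun a b c d => by ring]
    refine (norm_add_le _ _).trans (add_le_add ?_ (ih hl.2))
    rw [norm_mul]
    exact mul_le_mul_of_nonneg_left (h _ hl.1) (norm_nonneg _)

theorem norm_sq_tot (S : VP086.Std A H) {f : Gen → A} (hf : StarValued f) (l : Expr) :
    ‖S.ι (tot f l)‖ ^ 2 = (S.τ (tot f (mulE (adjE l) l))).re := by
  rw [tot_mulE, tot_adjE hf, ← VP086.Lim.inner_eq, inner_self_eq_norm_sq_to_K]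
  norm_cast

end VP085
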